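import Claimed.Agent.R254.Top.Main
import Claimed.Agent.R254.Loc.Main

/-!
# R254 / Top / Final : `OSC ⟹ S0494` (glue; architect helper65).
`S0494.lean` will be `exact s0494_of_osc <proof of OSC> φ hφ K hK hcurv p hp`.
-/

set_option autoImplicit false

namespace Claimed.Agent.R254

open MeasureTheory Metric Set Claims.C0422
open scoped ContDiff ENNReal

theorem s0494_of_osc (hosc : Claimed.Agent.R255.Osc.OSC) (φ : EuclideanSpace ℝ (Fin 2) → ℝ)
    (hφ : ContDiff ℝ ∞ φ) (K : Set (EuclideanSpace ℝ (Fin 2))) (hK : IsCompact K)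
    (hcurv : ∀ y ∈ K, ∀ v : EuclideanSpace ℝ (Fin 2), v ≠ 0 →
      0 < iteratedFDeriv ℝ 2 φ y (fun _ => v))
    (p : ℝ) (hp : 3 < p) :
    ∃ C : ℝ, ∀ f : EuclideanSpace ℝ (Fin 2) → ℂ,
      eLpNorm (graphExtension φ K f) (ENNReal.ofReal p) volume ≤
        ENNReal.ofReal C * eLpNorm f (ENNReal.ofReal p) (graphSurfaceMeasure φ K) :=
  er_main φ hφ K hK hcurv (fun y₀ hy₀ => Loc.loc_of_osc hosc hφ y₀ (hcurv y₀ hy₀)) p hp

end Claimed.Agent.R254
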