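import Claimed.Agent.R254.Top.Global
import Claimed.Prelude.Def_0422

/-!
THIS FILE = PACKAGE E254-FROZEN (row 254, END254-B; architect helper65).  Mathlib + the frozen `Claims.C0422.graphSurfaceMeasure`, `graphExtension`.
# From `ext` (Lebesgue data) to the frozen statement of S0494, junk cases included.

`wt φ y := √(1 + ‖fderiv ℝ φ y‖²)` (continuous, `≥ 1`), `σ := graphSurfaceMeasure φ K = (volume.restrict K).withDensity (ofReal ∘ wt)`, `gd φ K f := K.indicator (fun y => (wt φ y : ℂ) * f y)`.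
`er_frozen_ext` (ALL `f`, no measurability): `integral_withDensity_eq_integral_toReal_smul` (or `..._eq_integral_smul` with the `ℝ≥0`-valued density `Real.toNNReal ∘ wt`), `integral_indicator hK.measurableSet`; `ee`, `ph` unfold to the frozen exponential.
`er_frozen_junk`: if `f` is not `AEStronglyMeasurable` w.r.t. `σ`, neither is `e(..) * f` (multiply by the continuous `e(-..)`), so the Bochner integral is `0` (`integral_non_aestronglyMeasurable`).
`er_frozen_norm`: `f ∈ L^p(σ)`.  `gd` is a.e.-strongly measurable for `volume` (`aestronglyMeasurable_withDensity_iff`, `aestronglyMeasurable_indicator_iff`), and with `W₀ := sup_K wt`: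
`∫⁻ ‖gd‖ₑ³ = ∫⁻_K wt³ ‖f‖ₑ³ = ∫⁻ wt² ‖f‖ₑ³ ∂σ ≤ W₀² ∫⁻ ‖f‖ₑ³ ∂σ` (`lintegral_withDensity_eq_lintegral_mul`), `σ univ ≤ W₀ vol K < ∞`,
`eLpNorm f 3 σ ≤ eLpNorm f p σ * (σ univ)^{1/3 - 1/p}` (`eLpNorm_le_eLpNorm_mul_rpow_measure_univ`);  `eLpNorm_eq_lintegral_rpow_enorm` to pass between `eLpNorm` and `∫⁻`.
`er_frozen`: cases (not a.e.s.m.: LHS `= 0`; `eLpNorm f p σ = ∞`: RHS `= ∞` as `C' > 0`; else `er_frozen_norm` + `hLE`):
`eLpNorm (ext φ gd) p = (∫⁻‖ext‖ₑ^p)^{1/p} ≤ C^{1/p} (∫⁻‖gd‖ₑ³)^{1/3} ≤ C^{1/p} C₁ eLpNorm f p σ`.   `C' := C^{1/p} C₁ + 1`.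
-/

set_option autoImplicit false

namespace Claimed.Agent.R254

open MeasureTheory Metric Set Claims.C0422
open scoped ContDiff ENNReal ComplexConjugate RealInnerProductSpace

/-- the surface density -/
noncomputable def wt (φ : E2 → ℝ) (y : E2) : ℝ := Real.sqrt (1 + ‖fderiv ℝ φ y‖ ^ 2)

/-- the Lebesgue datum of a surface datum -/
noncomputable def gd (φ : E2 → ℝ) (K : Set E2) (f : E2 → ℂ) : E2 → ℂ :=
  K.indicator (fun y => (wt φ y : ℂ) * f y)

theorem wt_continuous {φ : E2 → ℝ} (hφ : ContDiff ℝ ∞ φ) : Continuous (wt φ) := by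
  unfold wt
  have := hφ.continuous_fderiv (by simp)
  fun_prop

theorem wt_pos (φ : E2 → ℝ) (y : E2) : 0 < wt φ y := by
  unfold wt
  positivity

theorem er_frozen_dens_meas {φ : E2 → ℝ} (hφ : ContDiff ℝ ∞ φ) :
    Measurable fun y => ENNReal.ofReal (wt φ y) :=
  (wt_continuous hφ).measurable.ennreal_ofReal

theorem er_frozen_measure (φ : E2 → ℝ) (K : Set E2) :
    graphSurfaceMeasure φ K = (volume.restrict K).withDensity fun y => ENNReal.ofReal (wt φ y) := rfl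

theorem gd_supp (φ : E2 → ℝ) (K : Set E2) (f : E2 → ℂ) (y : E2) (hy : gd φ K f y ≠ 0) : y ∈ K := by
  by_contra h
  exact hy (indicator_of_notMem h _)

theorem er_frozen_ext {φ : E2 → ℝ} (hφ : ContDiff ℝ ∞ φ) {K : Set E2} (hK : IsCompact K)
    (f : E2 → ℂ) : graphExtension φ K f = ext φ (gd φ K f) := by
  funext x
  unfold graphExtension ext
  rw [er_frozen_measure, integral_withDensity_eq_integral_toReal_smul (er_frozen_dens_meas hφ)
    (Filter.Eventually.of_forall fun y => ENNReal.ofReal_lt_top), ← integral_indicator hK.measurableSet]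
  refine integral_congr_ae (Filter.Eventually.of_forall fun y => ?_)
  by_cases hy : y ∈ K
  · simp only [gd, indicator_of_mem hy, ENNReal.toReal_ofReal (wt_pos φ y).le, Complex.real_smul, ee,
      ph]
    ring
  · simp only [gd, indicator_of_notMem hy, mul_zero]

theorem er_frozen_junk {φ : E2 → ℝ} (hφ : ContDiff ℝ ∞ φ) {K : Set E2} (hK : IsCompact K)
    (f : E2 → ℂ) (hf : ¬ AEStronglyMeasurable f (graphSurfaceMeasure φ K)) :
    graphExtension φ K f = 0 := by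
  funext x
  unfold graphExtension
  rw [integral_non_aestronglyMeasurable, Pi.zero_apply]
  intro hm
  refine hf ?_
  have hc : Continuous fun y : E2 => Complex.exp (-(2 * Real.pi * Complex.I *
      ((x 0 * y 0 + x 1 * y 1 + x 2 * φ y : ℝ) : ℂ))) := by
    have := hφ.continuous
    fun_prop
  refine (hc.aestronglyMeasurable.mul hm).congr (Filter.Eventually.of_forall fun y => ?_)
  simp only [Pi.mul_apply]
  rw [← mul_assoc, ← Complex.exp_add, neg_add_cancel, Complex.exp_zero, one_mul]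

theorem er_frozen_norm {φ : E2 → ℝ} (hφ : ContDiff ℝ ∞ φ) {K : Set E2} (hK : IsCompact K) {p : ℝ}
    (hp : 3 < p) :
    ∃ C₁ : ℝ, 0 ≤ C₁ ∧ ∀ f : E2 → ℂ, MemLp f (ENNReal.ofReal p) (graphSurfaceMeasure φ K) →
      MemLp (gd φ K f) 3 volume ∧
        (∫⁻ y, ‖gd φ K f y‖ₑ ^ (3 : ℝ)) ^ (1 / 3 : ℝ) ≤
          ENNReal.ofReal C₁ * eLpNorm f (ENNReal.ofReal p) (graphSurfaceMeasure φ K) := by
  have hp0 : 0 < p := by linarith
  obtain ⟨W₀, hW₀⟩ := hK.exists_bound_of_continuousOn (wt_continuous hφ).continuousOn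
  have hW : ∀ y ∈ K, wt φ y ≤ W₀ := fun y hy => (le_abs_self _).trans (hW₀ y hy)
  set σ := graphSurfaceMeasure φ K with hσ
  have hσuniv : σ univ < ⊤ := by
    rw [hσ, er_frozen_measure, withDensity_apply _ MeasurableSet.univ, Measure.restrict_univ]
    calc ∫⁻ y in K, ENNReal.ofReal (wt φ y) ≤ ∫⁻ _ in K, ENNReal.ofReal W₀ :=
          setLIntegral_mono' hK.measurableSet fun y hy => ENNReal.ofReal_le_ofReal (hW y hy)
      _ = ENNReal.ofReal W₀ * volume K := by rw [setLIntegral_const]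
      _ < ⊤ := ENNReal.mul_lt_top ENNReal.ofReal_lt_top hK.measure_lt_top
  set cc : ℝ≥0∞ := ENNReal.ofReal (W₀ ^ 2) ^ (1 / 3 : ℝ) * σ univ ^ (1 / 3 - 1 / p) with hcc
  have hexp : 0 ≤ 1 / 3 - 1 / p := by
    rw [sub_nonneg]
    exact one_div_le_one_div_of_le (by norm_num) hp.le
  have hcctop : cc ≠ ⊤ :=
    ENNReal.mul_ne_top (ENNReal.rpow_ne_top_of_nonneg (by norm_num) ENNReal.ofReal_ne_top)
      (ENNReal.rpow_ne_top_of_nonneg hexp hσuniv.ne)
  refine ⟨cc.toReal, ENNReal.toReal_nonneg, fun f hf => ?_⟩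
  rw [ENNReal.ofReal_toReal hcctop]
  have haesm : AEStronglyMeasurable (gd φ K f) volume := by
    unfold gd
    rw [aestronglyMeasurable_indicator_iff hK.measurableSet]
    have h1 := hf.1
    rw [hσ, er_frozen_measure] at h1
    have h2 := (aestronglyMeasurable_withDensity_iff
      (f := fun y => Real.toNNReal (wt φ y)) (wt_continuous hφ).measurable.real_toNNReal).1 h1
    refine h2.congr (Filter.Eventually.of_forall fun y => ?_)
    simp only [Real.coe_toNNReal _ (wt_pos φ y).le, Complex.real_smul]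
  have h3 : ∫⁻ y, ‖gd φ K f y‖ₑ ^ (3 : ℝ) ≤ ENNReal.ofReal (W₀ ^ 2) * ∫⁻ y, ‖f y‖ₑ ^ (3 : ℝ) ∂σ := by
    rw [hσ, er_frozen_measure, lintegral_withDensity_eq_lintegral_mul_non_measurable _
      (er_frozen_dens_meas hφ) (Filter.Eventually.of_forall fun y => ENNReal.ofReal_lt_top),
      ← lintegral_const_mul' _ _ ENNReal.ofReal_ne_top, ← lintegral_indicator hK.measurableSet]
    refine lintegral_mono fun y => ?_
    by_cases hy : y ∈ K
    · simp only [gd, indicator_of_mem hy, Pi.mul_apply]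
      rw [enorm_mul, ENNReal.mul_rpow_of_nonneg _ _ (by norm_num : (0 : ℝ) ≤ 3), ← mul_assoc]
      refine mul_le_mul_left ?_ _
      rw [← ofReal_norm, Complex.norm_real, Real.norm_of_nonneg (wt_pos φ y).le,
        ENNReal.ofReal_rpow_of_nonneg (wt_pos φ y).le (by norm_num),
        ← ENNReal.ofReal_mul (by positivity)]
      refine ENNReal.ofReal_le_ofReal ?_
      have h4 : wt φ y ^ (3 : ℝ) = wt φ y ^ 2 * wt φ y := by
        rw [show (3 : ℝ) = ((3 : ℕ) : ℝ) by norm_num, Real.rpow_natCast]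
        ring
      rw [h4]
      have h5 := hW y hy
      have h6 := (wt_pos φ y).le
      gcongr
    · simp only [gd, indicator_of_notMem hy, enorm_zero]
      rw [ENNReal.zero_rpow_of_pos (by norm_num)]
  have h3ne : (3 : ℝ≥0∞) ≠ 0 := by norm_num
  have h3top : (3 : ℝ≥0∞) ≠ ⊤ := by norm_num
  have h3real : (3 : ℝ≥0∞).toReal = 3 := by norm_num
  have h7 : (∫⁻ y, ‖f y‖ₑ ^ (3 : ℝ) ∂σ) ^ (1 / 3 : ℝ) = eLpNorm f 3 σ := by
    rw [eLpNorm_eq_lintegral_rpow_enorm_toReal h3ne h3top, h3real]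
  have h8 : eLpNorm f 3 σ ≤ eLpNorm f (ENNReal.ofReal p) σ * σ univ ^ (1 / 3 - 1 / p) := by
    have h9 := eLpNorm_le_eLpNorm_mul_rpow_measure_univ (μ := σ) (p := 3) (q := ENNReal.ofReal p)
      (by
        rw [show (3 : ℝ≥0∞) = ENNReal.ofReal 3 by norm_num]
        exact ENNReal.ofReal_le_ofReal hp.le) hf.1
    rwa [h3real, ENNReal.toReal_ofReal hp0.le] at h9
  have hmain : (∫⁻ y, ‖gd φ K f y‖ₑ ^ (3 : ℝ)) ^ (1 / 3 : ℝ) ≤
      cc * eLpNorm f (ENNReal.ofReal p) σ := by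
    calc (∫⁻ y, ‖gd φ K f y‖ₑ ^ (3 : ℝ)) ^ (1 / 3 : ℝ)
        ≤ (ENNReal.ofReal (W₀ ^ 2) * ∫⁻ y, ‖f y‖ₑ ^ (3 : ℝ) ∂σ) ^ (1 / 3 : ℝ) :=
          ENNReal.rpow_le_rpow h3 (by norm_num)
      _ = ENNReal.ofReal (W₀ ^ 2) ^ (1 / 3 : ℝ) * eLpNorm f 3 σ := by
          rw [ENNReal.mul_rpow_of_nonneg _ _ (by norm_num : (0 : ℝ) ≤ 1 / 3), h7]
      _ ≤ ENNReal.ofReal (W₀ ^ 2) ^ (1 / 3 : ℝ) *
            (eLpNorm f (ENNReal.ofReal p) σ * σ univ ^ (1 / 3 - 1 / p)) :=
          mul_le_mul_right h8 _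
      _ = cc * eLpNorm f (ENNReal.ofReal p) σ := by
          rw [hcc]
          ring
  refine ⟨⟨haesm, ?_⟩, hmain⟩
  rw [eLpNorm_eq_lintegral_rpow_enorm_toReal h3ne h3top, h3real]
  exact lt_of_le_of_lt hmain (ENNReal.mul_lt_top hcctop.lt_top hf.2)

theorem er_frozen {φ : E2 → ℝ} (hφ : ContDiff ℝ ∞ φ) {K : Set E2} (hK : IsCompact K) {p C : ℝ}
    (hp : 3 < p) (hC : 0 ≤ C) (hLE : LE φ K p C) :
    ∃ C' : ℝ, ∀ f : E2 → ℂ,
      eLpNorm (graphExtension φ K f) (ENNReal.ofReal p) volume ≤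
        ENNReal.ofReal C' * eLpNorm f (ENNReal.ofReal p) (graphSurfaceMeasure φ K) := by
  have hp0 : 0 < p := by linarith
  obtain ⟨C₁, hC₁, hn⟩ := er_frozen_norm hφ hK hp
  refine ⟨C ^ (1 / p) * C₁ + 1, fun f => ?_⟩
  have hCp : 0 ≤ C ^ (1 / p) := Real.rpow_nonneg hC _
  by_cases hm : AEStronglyMeasurable f (graphSurfaceMeasure φ K)
  swap
  · rw [er_frozen_junk hφ hK f hm, eLpNorm_zero]
    exact zero_le
  by_cases htop : eLpNorm f (ENNReal.ofReal p) (graphSurfaceMeasure φ K) = ⊤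
  · rw [htop, ENNReal.mul_top]
    · exact le_top
    · rw [Ne, ENNReal.ofReal_eq_zero, not_le]
      positivity
  have hf : MemLp f (ENNReal.ofReal p) (graphSurfaceMeasure φ K) := ⟨hm, lt_top_iff_ne_top.2 htop⟩
  obtain ⟨hg, hgn⟩ := hn f hf
  have h1 := hLE (gd φ K f) hg (gd_supp φ K f)
  have hpne : ENNReal.ofReal p ≠ 0 := by
    rw [Ne, ENNReal.ofReal_eq_zero, not_le]
    exact hp0
  rw [er_frozen_ext hφ hK f, eLpNorm_eq_lintegral_rpow_enorm_toReal hpne ENNReal.ofReal_ne_top,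
    ENNReal.toReal_ofReal hp0.le]
  calc (∫⁻ x, ‖ext φ (gd φ K f) x‖ₑ ^ p) ^ (1 / p)
      ≤ (ENNReal.ofReal C * (∫⁻ y, ‖gd φ K f y‖ₑ ^ (3 : ℝ)) ^ (p / 3)) ^ (1 / p) :=
        ENNReal.rpow_le_rpow h1 (by positivity)
    _ = ENNReal.ofReal (C ^ (1 / p)) * (∫⁻ y, ‖gd φ K f y‖ₑ ^ (3 : ℝ)) ^ (1 / 3 : ℝ) := by
        rw [ENNReal.mul_rpow_of_nonneg _ _ (by positivity : 0 ≤ 1 / p), ← ENNReal.rpow_mul,
          ENNReal.ofReal_rpow_of_nonneg hC (by positivity)]
        congr 2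
        field_simp
    _ ≤ ENNReal.ofReal (C ^ (1 / p)) * (ENNReal.ofReal C₁ *
          eLpNorm f (ENNReal.ofReal p) (graphSurfaceMeasure φ K)) := mul_le_mul_right hgn _
    _ = ENNReal.ofReal (C ^ (1 / p) * C₁) *
          eLpNorm f (ENNReal.ofReal p) (graphSurfaceMeasure φ K) := by
        rw [← mul_assoc, ← ENNReal.ofReal_mul hCp]
    _ ≤ ENNReal.ofReal (C ^ (1 / p) * C₁ + 1) *
          eLpNorm f (ENNReal.ofReal p) (graphSurfaceMeasure φ K) :=
        mul_le_mul_left (ENNReal.ofReal_le_ofReal (by linarith)) _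

/-- generates the equation lemmas of the definitions above in this file (rule 6: unique names) -/
theorem er_frozen_eqns_cite : True := by
  have := @wt.eq_1
  have := @gd.eq_1
  trivial

end Claimed.Agent.R254
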