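import Claimed.Agent.R254.Basic

/-!
THIS FILE = PACKAGE E254-GLOBAL (row 254, END254-B; architect helper65).  Mathlib only.
# Finite covering of the compact set `K` by small balls.

`LE φ S p C` := the estimate `∫⁻ ‖ext φ g‖ₑ^p ≤ C (∫⁻ ‖g‖ₑ³)^{p/3}` for all `g ∈ L³` vanishing off `S`.
`er_LE_union`: `g = S.indicator g + Sᶜ.indicator g` for measurable `S`; the first vanishes off `S`, the second off `S'` (if `g` vanishes off `S ∪ S'`); both are in `L³` (`MemLp.indicator`) and INTEGRABLE is needed for `ext_add`: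
`g ∈ L³` vanishing off a set of finite measure is integrable (hypotheses `hSf`, `hSf'`).  `‖a+b‖ₑ^p ≤ 2^{p-1} (‖a‖ₑ^p + ‖b‖ₑ^p)` (`ENNReal.rpow_add_le_mul_rpow_add_rpow`, `enorm_add_le`), `∫⁻‖S.indicator g‖ₑ³ ≤ ∫⁻‖g‖ₑ³`.
`er_cover`: `IsCompact.elim_nhds_subcover` for `U y := ball y (ρ y)`, then `Finset.induction_on` with `er_LE_union` (`S = closedBall y (ρ y)`, `S' = ⋃ closedBall`), `er_LE_mono`; empty union: `g = 0`.
-/

set_option autoImplicit false

namespace Claimed.Agent.R254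

open MeasureTheory Metric Set
open scoped ContDiff ENNReal ComplexConjugate RealInnerProductSpace

/-- the `L³ → L^p` extension estimate for data vanishing off `S` -/
def LE (φ : E2 → ℝ) (S : Set E2) (p C : ℝ) : Prop :=
  ∀ g : E2 → ℂ, MemLp g 3 volume → (∀ y, g y ≠ 0 → y ∈ S) →
    ∫⁻ x, ‖ext φ g x‖ₑ ^ p ≤ ENNReal.ofReal C * (∫⁻ y, ‖g y‖ₑ ^ (3 : ℝ)) ^ (p / 3)

theorem er_LE_mono {φ : E2 → ℝ} {S S' : Set E2} {p C : ℝ} (h : LE φ S' p C) (hS : S ⊆ S') :
    LE φ S p C :=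
  fun g hg hs => h g hg fun y hy => hS (hs y hy)

/-- an `L³` function vanishing off a set of finite measure is integrable -/
theorem er_integrable_of_memLp {g : E2 → ℂ} (hg : MemLp g 3 volume) {S : Set E2} (hSf : volume S < ⊤)
    (hs : ∀ y, g y ≠ 0 → y ∈ S) : Integrable g := by
  have hM : MeasurableSet (toMeasurable volume S) := measurableSet_toMeasurable _ _
  have hMf : volume (toMeasurable volume S) < ⊤ := by
    rw [measure_toMeasurable]
    exact hSf
  have : IsFiniteMeasure (volume.restrict (toMeasurable volume S)) :=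
    ⟨by rw [Measure.restrict_apply_univ]; exact hMf⟩
  have h1 : MemLp g 1 (volume.restrict (toMeasurable volume S)) :=
    (hg.restrict _).mono_exponent (by norm_num)
  have h2 : IntegrableOn g (toMeasurable volume S) := memLp_one_iff_integrable.1 h1
  have h3 : (toMeasurable volume S).indicator g = g :=
    Set.indicator_eq_self.2 fun y hy => subset_toMeasurable _ _ (hs y hy)
  rw [← h3]
  exact h2.integrable_indicator hM

theorem er_lintegral_indicator_le (g : E2 → ℂ) (S : Set E2) :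
    ∫⁻ y, ‖S.indicator g y‖ₑ ^ (3 : ℝ) ≤ ∫⁻ y, ‖g y‖ₑ ^ (3 : ℝ) := by
  refine lintegral_mono fun y => ?_
  refine ENNReal.rpow_le_rpow ?_ (by norm_num)
  by_cases hy : y ∈ S
  · rw [Set.indicator_of_mem hy]
  · rw [Set.indicator_of_notMem hy]
    simp

theorem er_LE_union {φ : E2 → ℝ} (hφ : Continuous φ) {S S' : Set E2} (hS : MeasurableSet S)
    (hSf : volume S < ⊤) (hSf' : volume S' < ⊤) {p C C' : ℝ} (hp : 3 < p) (hC : 0 ≤ C) (hC' : 0 ≤ C')
    (h : LE φ S p C) (h' : LE φ S' p C') : LE φ (S ∪ S') p (2 ^ (p - 1) * (C + C')) := by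
  intro g hg hs
  have hs1 : ∀ y, S.indicator g y ≠ 0 → y ∈ S := fun y hy => by
    by_contra hyS
    exact hy (Set.indicator_of_notMem hyS g)
  have hs2 : ∀ y, Sᶜ.indicator g y ≠ 0 → y ∈ S' := fun y hy => by
    have hyS : y ∈ Sᶜ := by
      by_contra hyS
      exact hy (Set.indicator_of_notMem hyS g)
    rw [Set.indicator_of_mem hyS] at hy
    exact (hs y hy).resolve_left hyS
  have hm1 : MemLp (S.indicator g) 3 volume := hg.indicator hS
  have hm2 : MemLp (Sᶜ.indicator g) 3 volume := hg.indicator hS.compl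
  have hi1 : Integrable (S.indicator g) := er_integrable_of_memLp hm1 hSf hs1
  have hi2 : Integrable (Sᶜ.indicator g) := er_integrable_of_memLp hm2 hSf' hs2
  have hsum : (fun y => S.indicator g y + Sᶜ.indicator g y) = g :=
    funext fun y => congrFun (Set.indicator_self_add_compl S g) y
  have hext : ∀ x, ext φ g x = ext φ (S.indicator g) x + ext φ (Sᶜ.indicator g) x := fun x => by
    rw [← ext_add hφ hi1 hi2 x, hsum]
  have e1 := h _ hm1 hs1
  have e2 := h' _ hm2 hs2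
  have hp3 : 0 ≤ p / 3 := by positivity
  have i1 : (∫⁻ y, ‖S.indicator g y‖ₑ ^ (3 : ℝ)) ^ (p / 3) ≤ (∫⁻ y, ‖g y‖ₑ ^ (3 : ℝ)) ^ (p / 3) :=
    ENNReal.rpow_le_rpow (er_lintegral_indicator_le g S) hp3
  have i2 : (∫⁻ y, ‖Sᶜ.indicator g y‖ₑ ^ (3 : ℝ)) ^ (p / 3) ≤ (∫⁻ y, ‖g y‖ₑ ^ (3 : ℝ)) ^ (p / 3) :=
    ENNReal.rpow_le_rpow (er_lintegral_indicator_le g Sᶜ) hp3
  have hmeas : Measurable fun x => ‖ext φ (S.indicator g) x‖ₑ ^ p :=
    ((ext_continuous hφ hi1).measurable.enorm).pow_const p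
  have h2top : (2 : ℝ≥0∞) ^ (p - 1) ≠ ⊤ := ENNReal.rpow_ne_top_of_nonneg (by linarith) (by norm_num)
  have hconst : ENNReal.ofReal (2 ^ (p - 1) * (C + C'))
      = (2 : ℝ≥0∞) ^ (p - 1) * (ENNReal.ofReal C + ENNReal.ofReal C') := by
    rw [ENNReal.ofReal_mul (by positivity), ENNReal.ofReal_add hC hC',
      ← ENNReal.ofReal_rpow_of_pos (by norm_num)]
    norm_num
  calc ∫⁻ x, ‖ext φ g x‖ₑ ^ p
      ≤ ∫⁻ x, (2 : ℝ≥0∞) ^ (p - 1) *
          (‖ext φ (S.indicator g) x‖ₑ ^ p + ‖ext φ (Sᶜ.indicator g) x‖ₑ ^ p) := by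
        refine lintegral_mono fun x => ?_
        rw [hext x]
        exact (ENNReal.rpow_le_rpow (enorm_add_le _ _) (by linarith)).trans
          (ENNReal.rpow_add_le_mul_rpow_add_rpow _ _ (by linarith))
    _ = (2 : ℝ≥0∞) ^ (p - 1) *
          ((∫⁻ x, ‖ext φ (S.indicator g) x‖ₑ ^ p) + ∫⁻ x, ‖ext φ (Sᶜ.indicator g) x‖ₑ ^ p) := by
        rw [lintegral_const_mul' _ _ h2top, lintegral_add_left hmeas]
    _ ≤ (2 : ℝ≥0∞) ^ (p - 1) *
          (ENNReal.ofReal C * (∫⁻ y, ‖g y‖ₑ ^ (3 : ℝ)) ^ (p / 3)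
            + ENNReal.ofReal C' * (∫⁻ y, ‖g y‖ₑ ^ (3 : ℝ)) ^ (p / 3)) := by
        refine mul_le_mul_right (add_le_add (e1.trans ?_) (e2.trans ?_)) _
        · exact mul_le_mul_right i1 _
        · exact mul_le_mul_right i2 _
    _ = ENNReal.ofReal (2 ^ (p - 1) * (C + C')) * (∫⁻ y, ‖g y‖ₑ ^ (3 : ℝ)) ^ (p / 3) := by
        rw [hconst]
        ring

theorem er_cover {φ : E2 → ℝ} (hφ : Continuous φ) {K : Set E2} (hK : IsCompact K) {p : ℝ}
    (hp : 3 < p)
    (hloc : ∀ y₀ ∈ K, ∃ ρ C : ℝ, 0 < ρ ∧ 0 ≤ C ∧ LE φ (closedBall y₀ ρ) p C) :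
    ∃ C : ℝ, 0 ≤ C ∧ LE φ K p C := by
  classical
  choose! ρ C hρ hC hLE using hloc
  obtain ⟨t, htK, hcov⟩ := hK.elim_nhds_subcover (fun y => ball y (ρ y))
    fun y hy => ball_mem_nhds y (hρ y hy)
  have key : ∀ t : Finset E2, (∀ x ∈ t, x ∈ K) →
      ∃ C' : ℝ, 0 ≤ C' ∧ LE φ (⋃ x ∈ t, closedBall x (ρ x)) p C' := by
    intro t
    induction t using Finset.induction_on with
    | empty =>
      intro _
      refine ⟨0, le_rfl, fun g _ hs => ?_⟩
      have hg0 : g = fun _ => 0 := by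
        funext y
        by_contra hy
        simpa using hs y hy
      have hx : ∀ x, ext φ g x = 0 := fun x => by
        rw [hg0]
        simp [ext]
      simp only [hx, enorm_zero]
      rw [ENNReal.zero_rpow_of_pos (by linarith)]
      simp
    | insert a t _ ih =>
      intro hat
      obtain ⟨C', hC', hLE'⟩ := ih fun x hx => hat x (Finset.mem_insert_of_mem hx)
      have haK : a ∈ K := hat a (Finset.mem_insert_self a t)
      refine ⟨2 ^ (p - 1) * (C a + C'), by have := hC a haK; positivity, ?_⟩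
      rw [Finset.set_biUnion_insert]
      exact er_LE_union hφ measurableSet_closedBall measure_closedBall_lt_top
        (t.isCompact_biUnion fun x _ => isCompact_closedBall x (ρ x)).measure_lt_top hp (hC a haK) hC'
        (hLE a haK) hLE'
  obtain ⟨C', hC', hLE'⟩ := key t htK
  refine ⟨C', hC', er_LE_mono hLE' (hcov.trans ?_)⟩
  exact Set.iUnion₂_mono fun x _ => ball_subset_closedBall

/-- generates the equation lemmas of the definitions above in this file (rule 6: unique names) -/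
theorem er_global_eqns_cite : True := by
  have := @LE.eq_1
  trivial

end Claimed.Agent.R254
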