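import Claimed.Agent.R254.Basic

/-!
THIS FILE = PACKAGE E254-L3 (row 254, END254-B; architect helper65).  Mathlib only.
# From bounded Borel data (`Dat`) to `L³` data: truncation + Fatou.

PLAN.  `g ∈ L³`, `g = 0` off `Bc := closedBall y₀ ρ`.  `g₀ := Bc.indicator (hg.1.mk g)` is Borel measurable and `g₀ =ᵐ g` (`hg.1.ae_eq_mk`; off `Bc` both vanish).  By `ext_congr_ae` and `lintegral_congr_ae` we may replace `g` by `g₀`.
`g₀` is integrable (`MemLp` exponent `3` on the finite-measure set `Bc`: `MemLp.mono_exponent`/`MemLp.integrable` for `volume.restrict Bc`, then `integrableOn_iff_integrable_of_support_subset`).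
`g_n := {y | ‖g₀ y‖ ≤ n}.indicator g₀` is a `Dat y₀ ρ`, `‖g_n y‖ ≤ ‖g₀ y‖`, `g_n y → g₀ y` (eventually equal).  Dominated convergence (`tendsto_integral_of_dominated_convergence` with bound `‖g₀‖`): `ext φ g_n x → ext φ g₀ x` for all `x`.
Fatou (`lintegral_liminf_le`; measurability by `ext_continuous`): `∫⁻ ‖ext φ g₀‖ₑ^p = ∫⁻ liminf ‖ext φ g_n‖ₑ^p ≤ liminf ∫⁻ ‖ext φ g_n‖ₑ^p ≤ C (∫⁻‖g₀‖ₑ³)^{p/3}` (`lintegral_mono`, `ENNReal.rpow_le_rpow`).
-/

set_option autoImplicit false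

namespace Claimed.Agent.R254

open MeasureTheory Metric Set
open scoped ContDiff ENNReal ComplexConjugate RealInnerProductSpace

theorem er_local_L3 {φ : E2 → ℝ} (hφ : Continuous φ) {y₀ : E2} {ρ p C : ℝ} (hp : 3 < p)
    (hdat : ∀ g : E2 → ℂ, Dat y₀ ρ g →
      ∫⁻ x, ‖ext φ g x‖ₑ ^ p ≤ ENNReal.ofReal C * (∫⁻ y, ‖g y‖ₑ ^ (3 : ℝ)) ^ (p / 3))
    (g : E2 → ℂ) (hg : MemLp g 3 volume) (hsupp : ∀ y, g y ≠ 0 → y ∈ closedBall y₀ ρ) :
    ∫⁻ x, ‖ext φ g x‖ₑ ^ p ≤ ENNReal.ofReal C * (∫⁻ y, ‖g y‖ₑ ^ (3 : ℝ)) ^ (p / 3) := by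
  have hp0 : 0 < p := by linarith
  set g₀ : E2 → ℂ := (closedBall y₀ ρ).indicator (hg.1.mk g) with hg₀
  have hm₀ : Measurable g₀ := (hg.1.stronglyMeasurable_mk.measurable).indicator measurableSet_closedBall
  have hae : g =ᵐ[volume] g₀ := by
    filter_upwards [hg.1.ae_eq_mk] with y hy
    by_cases hyB : y ∈ closedBall y₀ ρ
    · rw [hg₀, Set.indicator_of_mem hyB, hy]
    · rw [hg₀, Set.indicator_of_notMem hyB]
      by_contra h
      exact hyB (hsupp y h)
  have hg₀3 : MemLp g₀ 3 volume := hg.ae_eq hae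
  have hs₀ : ∀ y, g₀ y ≠ 0 → y ∈ closedBall y₀ ρ := by
    intro y hy
    by_contra h
    exact hy (Set.indicator_of_notMem h _)
  have hint : Integrable g₀ volume := by
    have h1 : MemLp g₀ 1 (volume.restrict (closedBall y₀ ρ)) := by
      have : IsFiniteMeasure (volume.restrict (closedBall y₀ ρ)) :=
        ⟨by rw [Measure.restrict_apply_univ]; exact measure_closedBall_lt_top⟩
      exact (hg₀3.restrict _).mono_exponent (by norm_num)
    have h2 : IntegrableOn g₀ (closedBall y₀ ρ) volume := memLp_one_iff_integrable.1 h1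
    exact (integrableOn_iff_integrable_of_support_subset (fun y hy => hs₀ y hy)).1 h2
  have e1 : ∀ x, ext φ g x = ext φ g₀ x := fun x => ext_congr_ae φ hae x
  have e2 : ∫⁻ y, ‖g y‖ₑ ^ (3 : ℝ) = ∫⁻ y, ‖g₀ y‖ₑ ^ (3 : ℝ) := by
    refine lintegral_congr_ae ?_
    filter_upwards [hae] with y hy
    rw [hy]
  simp only [e1, e2]
  -- truncation
  set gn : ℕ → E2 → ℂ := fun n => {y | ‖g₀ y‖ ≤ n}.indicator g₀ with hgn
  have hms : ∀ n : ℕ, MeasurableSet {y | ‖g₀ y‖ ≤ (n : ℝ)} := fun n =>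
    measurableSet_le hm₀.norm measurable_const
  have hle : ∀ n y, ‖gn n y‖ ≤ ‖g₀ y‖ := fun n y => norm_indicator_le_norm_self _ _
  have hD : ∀ n, Dat y₀ ρ (gn n) := by
    intro n
    refine ⟨hm₀.indicator (hms n), ⟨n, fun y => ?_⟩, fun y hy => hs₀ y ?_⟩
    · by_cases hy : y ∈ {y | ‖g₀ y‖ ≤ (n : ℝ)}
      · rw [hgn]; simp only [Set.indicator_of_mem hy]; exact hy
      · rw [hgn]; simp only [Set.indicator_of_notMem hy, norm_zero]; positivity
    · intro h0
      apply hy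
      have := hle n y
      rw [h0, norm_zero] at this
      exact norm_le_zero_iff.1 this
  have hlim : ∀ y, Filter.Tendsto (fun n => gn n y) Filter.atTop (nhds (g₀ y)) := by
    intro y
    obtain ⟨N, hN⟩ := exists_nat_ge ‖g₀ y‖
    refine tendsto_const_nhds.congr' ?_
    filter_upwards [Filter.eventually_ge_atTop N] with n hn
    have : y ∈ {y | ‖g₀ y‖ ≤ (n : ℝ)} := hN.trans (by exact_mod_cast hn)
    rw [hgn]; simp only [Set.indicator_of_mem this]
  have hext : ∀ x, Filter.Tendsto (fun n => ext φ (gn n) x) Filter.atTop (nhds (ext φ g₀ x)) := by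
    intro x
    unfold ext
    refine tendsto_integral_of_dominated_convergence (fun y => ‖g₀ y‖)
      (fun n => (ext_integrable hφ (hD n).integrable x).aestronglyMeasurable) hint.norm ?_ ?_
    · intro n
      refine Filter.Eventually.of_forall fun y => ?_
      rw [norm_mul, ee_norm, one_mul]
      exact hle n y
    · exact Filter.Eventually.of_forall fun y => (hlim y).const_mul _
  have hpt : ∀ x, ‖ext φ g₀ x‖ₑ ^ p = Filter.liminf (fun n => ‖ext φ (gn n) x‖ₑ ^ p) Filter.atTop := by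
    intro x
    have h1 : Filter.Tendsto (fun n => ‖ext φ (gn n) x‖ₑ ^ p) Filter.atTop (nhds (‖ext φ g₀ x‖ₑ ^ p)) :=
      ((ENNReal.continuous_rpow_const (y := p)).tendsto _).comp ((continuous_enorm.tendsto _).comp (hext x))
    exact h1.liminf_eq.symm
  calc ∫⁻ x, ‖ext φ g₀ x‖ₑ ^ p = ∫⁻ x, Filter.liminf (fun n => ‖ext φ (gn n) x‖ₑ ^ p) Filter.atTop :=
        lintegral_congr hpt
    _ ≤ Filter.liminf (fun n => ∫⁻ x, ‖ext φ (gn n) x‖ₑ ^ p) Filter.atTop := by
        refine lintegral_liminf_le (fun n => ?_)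
        exact ((ext_continuous hφ (hD n).integrable).measurable.enorm).pow_const p
    _ ≤ ENNReal.ofReal C * (∫⁻ y, ‖g₀ y‖ₑ ^ (3 : ℝ)) ^ (p / 3) := by
        refine Filter.liminf_le_of_le (by isBoundedDefault) ?_
        intro b hb
        obtain ⟨n, hn⟩ := hb.exists
        refine hn.trans ((hdat _ (hD n)).trans ?_)
        gcongr with y
        exact enorm_le_iff_norm_le.2 (hle n y)

end Claimed.Agent.R254
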