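import Claimed.Agent.R254.Basic

/-!
THIS FILE = PACKAGE E254-ERLOC (row 254, END254-B; architect helper65).  Mathlib only.
# The local quantitative hypotheses `ErLoc` from smoothness and positivity of the Hessian at ONE point.

PLAN.  `Q y := fderiv ℝ (fderiv ℝ φ) y : E2 →L[ℝ] E2 →L[ℝ] ℝ` is continuous (`hφ.fderiv_right`, `ContDiff.continuous_fderiv`), `iteratedFDeriv_two_apply`: `iteratedFDeriv ℝ 2 φ y (fun _ => v) = Q y v v`.
The unit sphere of `E2` is compact, `v ↦ Q y₀ v v` is continuous and positive on it: minimum `2c > 0`; by homogeneity `Q y₀ v v ≥ 2c ‖v‖²` for all `v`.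
Continuity of `Q` at `y₀`: `∃ δ > 0`, `‖Q y - Q y₀‖ ≤ c` on `closedBall y₀ δ`, hence `Q y v v ≥ c ‖v‖²` there.   `ρ := min (min (δ/2) (ρ₁/2)) 1`.
`G := max 1 (sup over the compact ball of ‖fderiv φ‖ and ‖Q‖)` (`IsCompact.exists_bound_of_continuousOn`).
`mono`: for `y, z` in the (convex) ball, `f(s) := fderiv ℝ φ (z + s • (y-z)) (y-z)` has derivative `Q(z + s(y-z)) (y-z) (y-z) ≥ c ‖y-z‖²` on `[0,1]`;
mean value inequality (`Convex.mul_sub_le_image_sub_of_le_deriv` on `Icc 0 1`, or `image_sub_le..`/`exists_deriv_eq_slope`): `f 1 - f 0 ≥ c ‖y-z‖²`.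
-/

set_option autoImplicit false

namespace Claimed.Agent.R254

open MeasureTheory Metric Set
open scoped ContDiff ENNReal ComplexConjugate RealInnerProductSpace

theorem er_loc_exists {φ : E2 → ℝ} (hφ : ContDiff ℝ ∞ φ) (y₀ : E2)
    (hcurv : ∀ v : E2, v ≠ 0 → 0 < iteratedFDeriv ℝ 2 φ y₀ (fun _ => v)) (ρ₁ : ℝ) (hρ₁ : 0 < ρ₁) :
    ∃ ρ c G : ℝ, 2 * ρ ≤ ρ₁ ∧ ErLoc φ y₀ ρ c G := by
  have hφ1 : ContDiff ℝ 1 (fderiv ℝ φ) := hφ.fderiv_right (m := 1) (by norm_cast)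
  have hc1 : Continuous (fderiv ℝ φ) := hφ1.continuous
  have hQc : Continuous (fderiv ℝ (fderiv ℝ φ)) := hφ1.continuous_fderiv (by norm_num)
  have hQd : ∀ y, HasFDerivAt (fderiv ℝ φ) (fderiv ℝ (fderiv ℝ φ) y) y := fun y =>
    (hφ1.differentiable (by norm_num) y).hasFDerivAt
  have hpos : ∀ v : E2, v ≠ 0 → 0 < fderiv ℝ (fderiv ℝ φ) y₀ v v := fun v hv => by
    have := hcurv v hv
    rwa [iteratedFDeriv_two_apply] at this
  -- minimum on the unit sphere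
  have hsc : IsCompact (sphere (0 : E2) 1) := isCompact_sphere 0 1
  have hsn : (sphere (0 : E2) 1).Nonempty := NormedSpace.sphere_nonempty.2 zero_le_one
  have hqc : Continuous fun v : E2 => fderiv ℝ (fderiv ℝ φ) y₀ v v :=
    ((fderiv ℝ (fderiv ℝ φ) y₀).continuous).clm_apply continuous_id
  obtain ⟨v₀, hv₀, hmin⟩ := hsc.exists_isMinOn hsn hqc.continuousOn
  have hv₀n : v₀ ≠ 0 := by
    intro h0
    rw [h0, mem_sphere_zero_iff_norm, norm_zero] at hv₀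
    exact zero_ne_one hv₀
  set m : ℝ := fderiv ℝ (fderiv ℝ φ) y₀ v₀ v₀ with hm
  have hm0 : 0 < m := hpos v₀ hv₀n
  have hlow : ∀ v : E2, m * ‖v‖ ^ 2 ≤ fderiv ℝ (fderiv ℝ φ) y₀ v v := by
    intro v
    by_cases hv : v = 0
    · simp [hv]
    · have hn : 0 < ‖v‖ := norm_pos_iff.2 hv
      have hu : ‖v‖⁻¹ • v ∈ sphere (0 : E2) 1 := by
        rw [mem_sphere_zero_iff_norm, norm_smul, norm_inv, norm_norm, inv_mul_cancel₀ hn.ne']
      have h1 : m ≤ fderiv ℝ (fderiv ℝ φ) y₀ (‖v‖⁻¹ • v) (‖v‖⁻¹ • v) := hmin hu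
      simp only [map_smul, smul_apply, smul_eq_mul] at h1
      have h2 : m * ‖v‖ ^ 2 ≤ (‖v‖⁻¹ * (‖v‖⁻¹ * fderiv ℝ (fderiv ℝ φ) y₀ v v)) * ‖v‖ ^ 2 :=
        mul_le_mul_of_nonneg_right h1 (by positivity)
      have h3 : (‖v‖⁻¹ * (‖v‖⁻¹ * fderiv ℝ (fderiv ℝ φ) y₀ v v)) * ‖v‖ ^ 2
          = fderiv ℝ (fderiv ℝ φ) y₀ v v := by
        field_simp
      rwa [h3] at h2
  -- continuity of the Hessian
  have hev : ∀ᶠ y in nhds y₀, ‖fderiv ℝ (fderiv ℝ φ) y - fderiv ℝ (fderiv ℝ φ) y₀‖ < m / 2 := by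
    have hcn : Continuous fun y => ‖fderiv ℝ (fderiv ℝ φ) y - fderiv ℝ (fderiv ℝ φ) y₀‖ :=
      (continuous_norm (E := E2 →L[ℝ] E2 →L[ℝ] ℝ)).comp (hQc.sub continuous_const)
    have h0 : ‖fderiv ℝ (fderiv ℝ φ) y₀ - fderiv ℝ (fderiv ℝ φ) y₀‖ < m / 2 := by
      rw [sub_self, ContinuousLinearMap.opNorm_zero]
      positivity
    exact (hcn.tendsto y₀).eventually (gt_mem_nhds h0)
  obtain ⟨δ, hδ, hδQ⟩ := Metric.eventually_nhds_iff_ball.1 hev
  have hlow' : ∀ y ∈ ball y₀ δ, ∀ v : E2, m / 2 * ‖v‖ ^ 2 ≤ fderiv ℝ (fderiv ℝ φ) y v v := by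
    intro y hy v
    have h1 : ‖fderiv ℝ (fderiv ℝ φ) y - fderiv ℝ (fderiv ℝ φ) y₀‖ < m / 2 := hδQ y hy
    have h2 : ‖(fderiv ℝ (fderiv ℝ φ) y - fderiv ℝ (fderiv ℝ φ) y₀) v v‖ ≤ m / 2 * ‖v‖ * ‖v‖ :=
      (ContinuousLinearMap.le_opNorm₂ _ v v).trans (by gcongr)
    rw [sub_apply, sub_apply, Real.norm_eq_abs] at h2
    have h3 := (abs_le.1 h2).1
    have h4 := hlow v
    nlinarith
  set ρ : ℝ := min (min (δ / 4) (ρ₁ / 2)) 1 with hρdef
  have hρ0 : 0 < ρ := lt_min (lt_min (by positivity) (by positivity)) one_pos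
  have hρδ : ρ ≤ δ / 4 := (min_le_left _ _).trans (min_le_left _ _)
  have hρρ : ρ ≤ ρ₁ / 2 := (min_le_left _ _).trans (min_le_right _ _)
  have hρ1 : ρ ≤ 1 := min_le_right _ _
  have hsub : closedBall y₀ (2 * ρ) ⊆ ball y₀ δ := closedBall_subset_ball (by linarith)
  obtain ⟨G₁, hG₁⟩ := (isCompact_closedBall y₀ (2 * ρ)).exists_bound_of_continuousOn hc1.continuousOn
  have hQn : Continuous fun y => ‖fderiv ℝ (fderiv ℝ φ) y‖ := (continuous_norm (E := E2 →L[ℝ] E2 →L[ℝ] ℝ)).comp hQc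
  obtain ⟨G₂, hG₂'⟩ := (isCompact_closedBall y₀ (2 * ρ)).exists_bound_of_continuousOn hQn.continuousOn
  have hG₂ : ∀ y ∈ closedBall y₀ (2 * ρ), ‖fderiv ℝ (fderiv ℝ φ) y‖ ≤ G₂ := fun y hy => by
    exact (Real.le_norm_self _).trans (hG₂' y hy)
  refine ⟨ρ, m / 2, max 1 (max G₁ G₂), by linarith, hφ, hρ0, hρ1, by positivity, le_max_left _ _, ?_,
    fun y hy => (hG₁ y hy).trans ((le_max_left _ _).trans (le_max_right _ _)),
    fun y hy => (hG₂ y hy).trans ((le_max_right _ _).trans (le_max_right _ _))⟩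
  intro y hy z hz
  have hder : ∀ s : ℝ, HasDerivAt (fun s : ℝ => fderiv ℝ φ (z + s • (y - z)) (y - z))
      (fderiv ℝ (fderiv ℝ φ) (z + s • (y - z)) (y - z) (y - z)) s := by
    intro s
    have hγ : HasDerivAt (fun s : ℝ => z + s • (y - z)) (y - z) s := by
      have := ((hasDerivAt_id s).smul_const (y - z)).const_add z
      simpa using this
    have h1 : HasDerivAt (fderiv ℝ φ ∘ fun s : ℝ => z + s • (y - z))
        (fderiv ℝ (fderiv ℝ φ) (z + s • (y - z)) (y - z)) s := (hQd _).comp_hasDerivAt s hγ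
    have h2 := h1.clm_apply (hasDerivAt_const s (y - z))
    simpa using h2
  have hmvt := Convex.mul_sub_le_image_sub_of_le_deriv (convex_Icc (0 : ℝ) 1)
    (f := fun s : ℝ => fderiv ℝ φ (z + s • (y - z)) (y - z))
    (fun s _ => (hder s).continuousAt.continuousWithinAt)
    (fun s _ => (hder s).differentiableAt.differentiableWithinAt) (C := m / 2 * ‖y - z‖ ^ 2)
    (fun s hs => by
      rw [(hder s).deriv]
      apply hlow' _ (hsub _)
      have hs' : s ∈ Icc (0 : ℝ) 1 := interior_subset hs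
      have hconv := (convex_closedBall y₀ (2 * ρ)).add_smul_sub_mem hz hy hs'
      exact hconv)
    0 (left_mem_Icc.2 zero_le_one) 1 (right_mem_Icc.2 zero_le_one) zero_le_one
  simpa using hmvt

end Claimed.Agent.R254
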