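import Claimed.Agent.R254.Level.Strong
import Claimed.Agent.R254.Top.Loc
import Claimed.Agent.R254.Top.L3
import Claimed.Agent.R254.Top.Frozen

/-!
# R254 / Top / Main : EXIT OF END254-B (glue; architect helper65).
`er_main`:  (`∀ y₀ ∈ K, ∃ ρ > 0, LocEst φ y₀ ρ`)  ⟹  the conclusion of S0494 (verbatim).
`S0494.lean` = `er_main` + the exit of END254-A (`OSC → D²φ(y₀) > 0 → ∃ ρ > 0, LocEst φ y₀ ρ`) + the proof of `OSC`.
-/

set_option autoImplicit false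

namespace Claimed.Agent.R254

open MeasureTheory Metric Set Claims.C0422
open scoped ContDiff ENNReal ComplexConjugate RealInnerProductSpace

theorem LocEst.mono {φ : E2 → ℝ} {y₀ : E2} {ρ ρ' : ℝ} (h : LocEst φ y₀ ρ) (hρ : ρ' ≤ ρ) :
    LocEst φ y₀ ρ' := by
  intro ν hν
  obtain ⟨C, hC, hh⟩ := h ν hν
  exact ⟨C, hC, fun R hR g hg hs => hh R hR g hg fun y hy => closedBall_subset_closedBall hρ (hs y hy)⟩

theorem er_main (φ : E2 → ℝ) (hφ : ContDiff ℝ ∞ φ) (K : Set E2) (hK : IsCompact K)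
    (hcurv : ∀ y ∈ K, ∀ v : E2, v ≠ 0 → 0 < iteratedFDeriv ℝ 2 φ y (fun _ => v))
    (hloc : ∀ y₀ ∈ K, ∃ ρ : ℝ, 0 < ρ ∧ LocEst φ y₀ ρ) (p : ℝ) (hp : 3 < p) :
    ∃ C : ℝ, ∀ f : E2 → ℂ,
      eLpNorm (graphExtension φ K f) (ENNReal.ofReal p) volume ≤
        ENNReal.ofReal C * eLpNorm f (ENNReal.ofReal p) (graphSurfaceMeasure φ K) := by
  have h1 : ∀ y₀ ∈ K, ∃ ρ C : ℝ, 0 < ρ ∧ 0 ≤ C ∧ LE φ (closedBall y₀ ρ) p C := by
    intro y₀ hy₀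
    obtain ⟨ρ₁, hρ₁, hL⟩ := hloc y₀ hy₀
    obtain ⟨ρ, c, G, h2ρ, hE⟩ := er_loc_exists hφ y₀ (hcurv y₀ hy₀) ρ₁ hρ₁
    obtain ⟨C, hC, hdat⟩ := er_local_dat hE (hL.mono h2ρ) p hp
    exact ⟨ρ, C, hE.hρ, hC, fun g hg hs => er_local_L3 hφ.continuous hp hdat g hg hs⟩
  obtain ⟨C, hC, hLE⟩ := er_cover hφ.continuous hK hp h1
  exact er_frozen hφ hK hp hC hLE

end Claimed.Agent.R254
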